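import Vale.Agent.P011I.IF
import Vale.Agent.P011IT.Grp

/-!
P011I (helper82): the certificate gives a central isogeny.
-/

set_option autoImplicit false
set_option linter.all false

namespace Vale.Agent.P011IFA

open Matrix Vale.Agent.P011L Vale.Agent.P183CH Vale.Agent.P183CH.Chev Vale.Agent.P011U
  Vale.Agent.P092AG Vale.Agent.P092A2 Vale.Agent.P011I

theorem ap_map {K Ω m n : Type} [Field K] [Field Ω] [Algebra K Ω]
    (P : Matrix n n (MvPolynomial (m × m) K)) (g : Matrix m m Ω) :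
    ap (P.map (MvPolynomial.map (algebraMap K Ω))) g = ap P g :=
  Matrix.ext fun i j => MvPolynomial.aeval_map_algebraMap Ω _ (P i j)

theorem ap_ap {R A l m n : Type} [CommRing R] [CommRing A] [Algebra R A]
    (W : Matrix n n (MvPolynomial (m × m) R)) (P : Matrix m m (MvPolynomial (l × l) R))
    (g : Matrix l l A) : ap (ap W P) g = ap W (ap P g) :=
  Matrix.ext fun i j => MvPolynomial.comp_aeval_apply (fun e : m × m => P e.1 e.2)
    (MvPolynomial.aeval fun e : l × l => g e.1 e.2) (W i j)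

theorem ap_alg {R A m n : Type} [CommRing R] [CommRing A] [Algebra R A]
    (W : Matrix n n (MvPolynomial (m × m) R)) (g : Matrix m m R) :
    ap W (g.map (algebraMap R A)) = (ap W g).map (algebraMap R A) :=
  Matrix.ext fun i j => (MvPolynomial.comp_aeval_apply _ (Algebra.ofId R A) (W i j)).symm

theorem adm_map (D : Chev) {A B : Type} [CommRing A] [CommRing B] (f : A →+* B) (g : D.Mat A) :
    Adm D (g.map f) = (Adm D g).map f := Matrix.ext fun p q => by
  have e := f.map_adjugate g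
  simp only [RingHom.mapMatrix_apply] at e
  simp only [Adm, of_apply, map_apply, map_mul, ← e]

/-- the generic value of `Adm` -/
noncomputable def adX (D : Chev) (R : Type) [CommRing R] : Matrix (JJ D) (JJ D) (Pl D.n R) :=
  Adm D (of fun i j => MvPolynomial.X (i, j))

theorem ap_adX (D : Chev) {R A : Type} [CommRing R] [CommRing A] [Algebra R A] (g : D.Mat A) :
    ap (adX D R) g = Adm D g := by
  have e := adm_map D (MvPolynomial.aeval (R := R) fun e : Fin D.n × Fin D.n => g e.1 e.2).toRingHom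
    (of fun i j => MvPolynomial.X (i, j))
  refine e.symm.trans (congrArg _ (Matrix.ext fun i j => MvPolynomial.aeval_X _ _))

/-- a subgroup which covers an irreducible group up to a finite set is dense -/
theorem dense_of {Ω : Type} [Field Ω] {n : ℕ} {G : Subgroup (GL (Fin n) Ω)}
    (h : (van (G : Set (GL (Fin n) Ω))).IsPrime) {N S : Set (GL (Fin n) Ω)} (hN : N.Finite)
    (hN' : N ⊆ G) (hS : ∀ g ∈ G, ∃ z ∈ N, z * g ∈ S) {p : Pl n Ω} (hp : p ∈ van S) :
    p ∈ van (G : Set (GL (Fin n) Ω)) := by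
  have h1 : ∀ z : GL (Fin n) Ω, ∃ c : Pl n Ω, ∀ g : GL (Fin n) Ω,
      ev (z * g : GL (Fin n) Ω).1 p = ev g.1 c := fun z =>
    ((PF.of p).comp (PF.mulE (pf_c (z : Mt n Ω)) PF.entry)).imp fun c hc g => hc g.1
  choose c hc using h1
  have h2 : ∏ z ∈ hN.toFinset, c z ∈ van (G : Set (GL (Fin n) Ω)) := fun g hg => by
    obtain ⟨z, hz, e⟩ := hS g hg
    rw [map_prod]
    exact Finset.prod_eq_zero (hN.mem_toFinset.2 hz) ((hc z g).symm.trans (hp _ e))
  obtain ⟨z, hz, e⟩ := (Ideal.IsPrime.prod_mem_iff (hp := h)).1 h2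
  intro g hg
  have := e _ (G.mul_mem (G.inv_mem (hN' (hN.mem_toFinset.1 hz))) hg)
  rwa [← hc, mul_inv_cancel_left] at this

theorem fa (img : IMG) (adm : ADM) : FA := by
  intro k K Ω _ _ _ _ _ _ n G hG D hD ⟨ψ, π, P, W, hP, hW, hc, hq⟩
  obtain ⟨a1, a2, ⟨g0, a3⟩, -, a5⟩ := adm D Ω
  let f := MvPolynomial.map (σ := Fin D.n × Fin D.n) (algebraMap K Ω)
  let f' := MvPolynomial.map (σ := Fin n × Fin n) (algebraMap K Ω)
  have hP' : ∀ g, (ψ g).1.1 = ap (P.map f) g.1.1 := fun g => (hP g).trans (ap_map _ _).symm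
  have hW' : ∀ g, π g = ap (W.map f') g.1.1 := fun g => (hW g).trans (ap_map _ _).symm
  refine ⟨ψ, P, hP, P011IT.ciso hD hG ψ hP' (fun p hp g => ?_) fun A _ _ g h hg hh e => ?_⟩
  · let ρ : D.grp Ω →* Matrix (JJ D) (JJ D) Ω := ⟨⟨fun g => Adm D g.1.1, a2⟩, a1⟩
    let N := π.ker.map G.subtype
    have hN : N ≤ G := Subgroup.map_subtype_le _
    refine dense_of hG.conn (N := N) (S := Set.range fun h => (ψ h).1) ?_ hN (fun g hg => ?_)
      (by rintro _ ⟨h, rfl⟩; exact hp h) _ g.2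
    · refine (finite_or_dense hG hN subset_zcl subset_rfl ?_).resolve_right fun hd => a3 ?_
      · rintro g hg _ ⟨x, hx, rfl⟩
        exact ⟨_, π.normal_ker.conj_mem x hx ⟨g, hg⟩, rfl⟩
      · ext i j
        have := hd (ψ g0).2 (W.map f' i j - MvPolynomial.C ((1 : Matrix _ _ Ω) i j)) (by
          rintro _ ⟨x, hx, rfl⟩
          rw [map_sub, ev_C, ← show π x = 1 from hx, hW']
          exact sub_self _)
        rw [map_sub, ev_C, sub_eq_zero] at this
        rw [← hc, hW']
        exact this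
    · obtain ⟨h, e⟩ := img Ω D.n (D.grp Ω) (P011IT.grp_closed hD) P011IT.grp_det P011IT.grp_prime
        (JJ D) ρ (fun a b => ⟨adX D Ω a b, fun g => (congrFun₂ (ap_adX D g.1.1) a b).symm⟩)
        (π ⟨g, hg⟩) ((Group.isUnit _).map π) fun q h => hq q h _
      refine ⟨_, ⟨ψ h * (⟨g, hg⟩ : G)⁻¹, ?_, rfl⟩, h, (inv_mul_cancel_right _ _).symm⟩
      show π _ = 1
      rw [map_mul, hc, show Adm D h.1.1 = π ⟨g, hg⟩ from e, ← map_mul, mul_inv_cancel, map_one]
  · refine a5 A g h hg hh ?_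
    have e1 : ap (W.map f') (1 : Mt n A) = 1 := by
      have := ap_alg (A := A) (W.map f') (1 : G).1.1
      rw [← hW', map_one, Matrix.map_one _ (map_zero _) (map_one _)] at this
      exact (congrArg _ (Matrix.map_one _ (map_zero _) (map_one _)).symm).trans this
    rw [← ap_adX (R := Ω), ← e1, ← e, ← ap_ap]
    ext i j
    refine sub_eq_zero.1 ((map_sub _ _ _).symm.trans (hg _ (vanish_eq.ge fun x hx => ?_)))
    refine (map_sub _ _ _).trans (sub_eq_zero.2 (congrFun₂ (?_ : ap _ x.1 = ap _ x.1) i j))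
    rw [ap_adX, ap_ap, ← hP' ⟨x, hx⟩, ← hW', hc]

end Vale.Agent.P011IFA
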